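import Vale.Agent.P011UGA.IF
import Vale.Agent.P011UZ2.Apx
import Vale.Agent.P011U.Top

/-!
The real places, and the independence of the signs.
-/

namespace Vale.Agent.P011UGP1

open Vale.Agent.P011L Vale.Agent.P011U Vale.Agent.P011UGA
open Vale.Agent.P011UZ2 (fin_real approx)
open NumberField.ComplexEmbedding IntermediateField

theorem real_of {l : Type} [Field l] (ψ : l →+* ℂ) (h : ∀ x, starRingEnd ℂ (ψ x) = ψ x) :
    ∃ f : l →+* ℝ, ∀ x, (f x : ℂ) = ψ x :=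
  have r : IsReal ψ := isReal_iff.2 (RingHom.ext h)
  ⟨r.embedding, r.coe_embedding_apply⟩

theorem plc : PLC := by
  intro k K _ _ _ _ r hk ε π _
  have := fin_real hk
  let V := {f : k →+* ℝ // ∃ (ψ : K →+* ℂ) (τ : K ≃ₐ[k] K),
    (∀ x, ψ (τ x) = starRingEnd ℂ (ψ x)) ∧ ε τ = -1 ∧ ∀ x, (f x : ℂ) = ψ (algebraMap k K x)}
  choose φ κ h1 h2 h3 using fun v : V => v.2
  refine ⟨V, φ, κ, inferInstance, h1, h2, fun ψ τ c e => ?_, fun v w e => Subtype.ext
    (RingHom.ext fun x => Complex.ofReal_injective (by rw [h3, h3, e]))⟩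
  obtain ⟨f, hf⟩ := real_of (ψ.comp (algebraMap k K)) fun x => by
    rw [RingHom.comp_apply, ← c, τ.commutes]
  obtain ⟨σ, hσ⟩ := exists_comp_symm_eq_of_comp_eq (k := k) (φ ⟨f, ψ, τ, c, e, hf⟩) ψ
    (RingHom.ext fun x => (h3 _ x).symm.trans (hf x))
  exact ⟨_, σ.symm, fun x => (DFunLike.congr_fun hσ x).symm⟩

theorem sgn : SGN := by
  classical
  intro k K _ _ _ _ r hk ε π ⟨F, hF, hN⟩ V φ κ P v j hj
  let S : Subgroup (K ≃ₐ[k] K) := (MulAction.stabilizer (Equiv.Perm (Fin r)) j).comap π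
  have mS : ∀ σ, σ ∈ S ↔ π σ j = j := fun _ => Iff.rfl
  have le : F.fixingSubgroup ≤ S := fun τ h => (mS τ).2 (by
    rw [(hN τ fun x hx => (mem_fixingSubgroup_iff F τ).1 h x hx).2]; rfl)
  have cl : (fixedField S).fixingSubgroup = S := InfiniteGalois.fixingSubgroup_fixedField
    ⟨S, S.isClosed_of_isOpen (Subgroup.isOpen_mono le F.fixingSubgroup_isOpen)⟩
  have lF : fixedField S ≤ F := by
    rw [← InfiniteGalois.fixedField_fixingSubgroup F]
    exact fun x hx g => hx ⟨g.1, le g.2⟩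
  have : FiniteDimensional k (fixedField S) :=
    .of_injective (inclusion lF).toLinearMap (inclusion_injective lF)
  have := fin_real (Glob.fin (L := fixedField S) hk)
  have fx : ∀ σ, π σ j = j → ∀ a : fixedField S, σ a = a := fun σ h a => a.2 ⟨σ, h⟩
  have re : ∀ w σ, π (κ w) (π σ j) = π σ j → ∃ f : fixedField S →+* ℝ,
      ∀ a, (f a : ℂ) = φ w (σ a) := fun w σ h =>
    real_of ((φ w).comp ((σ : K →+* K).comp (algebraMap (fixedField S) K))) fun a => by
      have e := fx (σ⁻¹ * κ w * σ) (by simp [h]) a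
      change starRingEnd ℂ (φ w (σ a)) = φ w (σ a)
      rw [← P.cj]
      exact congrArg _ (by simpa using congrArg σ e)
  obtain ⟨f0, h0⟩ := re v 1 (by simpa using hj)
  obtain ⟨a, -, ha⟩ := approx ∅ (fun _ => 0) (fun f => if f = f0 then -1 else 1) one_pos
  have a0 : f0 a < 0 := by simpa using (abs_lt.1 (ha f0)).2
  have an : (a : K) ≠ 0 := fun e => by simp [show a = 0 from Subtype.ext e] at a0
  have wd : ∀ σ τ, π σ j = π τ j → σ a = τ a := fun σ τ h => by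
    have e := fx (τ⁻¹ * σ) (by simp [h]) a
    simpa using congrArg τ e
  have ex : ∀ m, ∃ t : Kˣ, (∀ σ, π σ j = m → (t : K) = σ a) ∧ (m ∉ orb π j → t = 1) := fun m => by
    by_cases h : m ∈ orb π j
    · obtain ⟨σ, rfl⟩ := h
      exact ⟨.mk0 (σ a) ((map_ne_zero σ).2 an), fun τ e => wd _ _ e.symm, fun n => (n ⟨σ, rfl⟩).elim⟩
    · exact ⟨1, fun σ e => (h ⟨σ, e⟩).elim, fun _ => rfl⟩
  choose t t1 t2 using ex
  refine ⟨t, fun σ _ i => ?_, t2, ?_, fun w j' h n => ?_⟩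
  · by_cases h : i ∈ orb π j
    · obtain ⟨τ, rfl⟩ := h
      rw [t1 _ (σ * τ) (by simp), t1 _ τ rfl, AlgEquiv.mul_apply]
    · rw [t2 i h, t2 _ fun ⟨τ, e⟩ => h ⟨σ⁻¹ * τ, by simp [e]⟩, Units.val_one, map_one]
  · rw [t1 j 1 (by simp), ← h0, Complex.ofReal_re]
    exact a0
  by_cases m : j' ∈ orb π j
  swap
  · simp [t2 j' m]
  obtain ⟨σ, rfl⟩ := m
  obtain ⟨f, hf⟩ := re w σ h
  rw [t1 _ σ rfl, ← hf, Complex.ofReal_re]
  have ne : f ≠ f0 := fun e => by
    subst e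
    have e1 : w = v := P.sep _ _ fun x => by
      simpa using (hf (algebraMap k _ x)).symm.trans (h0 _)
    subst e1
    refine n (Prod.ext rfl ((mS σ).1 (cl ▸ (mem_fixingSubgroup_iff _ σ).2 fun x hx => ?_)))
    exact (φ w).injective ((hf ⟨x, hx⟩).symm.trans (h0 _))
  simpa [ne] using (abs_lt.1 (ha f)).1

end Vale.Agent.P011UGP1
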